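import Vale.Agent.Mem.Defs2

/-!
# P309: exact statements of all the parts (specification only; this file is not imported)

Finite constants: window length `w = n`, auxiliary rows `k = 5 n`, `m = 6 n`, moments `a = n`,
Frostman exponent `v = 3 n`; `τ1 = C1 * τ`.
-/

namespace Vale.Agent.Mem.Stub

open Finset Vale.Agent.Mem MeasureTheory ProbabilityTheory
open scoped InnerProductSpace

section abstract
variable {S W H Z L L' : Type} [Fintype S] [Fintype W] [Fintype H] [Fintype Z]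
  [DecidableEq L] [DecidableEq L']

/-- PART A (file PartA.lean, theorem pot_step).
Proof. Abbreviate `q = qn .. u x z' s`, `u' = un ..` (positive, sum 1), `c f = cell lam .. f x h s`.
(A1) log-sum inequality, pointwise in `h, x, s` (for `s'` in the cell of `s`, `lab x s' = lab x s`,
hence `c (q z') = ∑_z κ_z c (u z)`):
 `∑_{z'} q log (q c(1) / c(q z')) ≤ ∑_z u z s log (u z s c(1) / c(u z))`.
(A2) log-sum inequality on each cell, for fixed `h, x, z'`: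
 `∑_s lam s q (log c(q z') - log c(u' z')) ≤ ∑_s lam s q log (q / u')`.
So `pot u ≥ E ∑ q [log q + log c(1) - log c(q)] ≥ E ∑ q [log u' + log c(1) - log c(u')]`, and
`E_x q = u'`, `∑_{z'} q = 1 = ∑_{z'} u'` give the claim. -/
theorem pot_step (lam : S → ℝ) (gam : W → ℝ) (eta : H → ℝ) (lab : W → S → L) (labh : H → S → L')
    (hlam : ∀ s, 0 < lam s) (hgam : ∀ x, 0 ≤ gam x) (hg1 : ∑ x, gam x = 1)
    (heta : ∀ h, 0 ≤ eta h) (κ : Z → W → L → Z → ℝ) (hκ : ∀ z x l z', 0 < κ z x l z')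
    (hκ1 : ∀ z x l, ∑ z', κ z x l z' = 1) (u : Z → S → ℝ) (hu : ∀ z s, 0 < u z s)
    (hu1 : ∀ s, ∑ z, u z s = 1) :
    pot lam gam eta lab labh (un gam lab κ u) - pot lam gam eta lab labh u ≤
      ∑ h, eta h * ∑ x, gam x * ∑ s, lam s * ∑ z',
        (qn lab κ u x z' s - un gam lab κ u z' s) *
          Real.log (cell lam lab labh (un gam lab κ u z') x h s) := by
  sorry

/-- PART B (file PartB.lean, theorem dv_total).
Proof. With `U = ∑ gam q`, `I = ∑ gam (1+G)^a`: pointwise `t y ≤ t log t - t + exp y` with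
`t = q / U`, `y = a log (1+G) - log I`, averaged over `x`; and
`∑ lam ∑ gam ∑_z q log (q/U) ≤ - ∑ lam ∑_z U log U ≤ log card Z` since `q ≤ 1`. -/
theorem dv_total (lam : S → ℝ) (gam : W → ℝ) (hlam : ∀ s, 0 ≤ lam s) (hlam1 : ∑ s, lam s = 1)
    (hgam : ∀ x, 0 ≤ gam x) (hg1 : ∑ x, gam x = 1) (q : W → Z → S → ℝ)
    (hq : ∀ x z s, 0 < q x z s) (hq1 : ∀ x s, ∑ z, q x z s = 1) (a : ℕ) (ha : 1 ≤ a)
    (G : Z → S → W → ℝ) (hG : ∀ z s x, 0 ≤ G z s x) :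
    ∑ x, gam x * ∑ s, lam s * ∑ z, q x z s * Real.log (1 + G z s x) ≤
      Real.log (Fintype.card Z) / a + ∑ s, lam s * ∑ z, (∑ x, gam x * q x z s) *
        (Real.log (∑ x, gam x * (1 + G z s x) ^ a) / a) := by
  sorry

end abstract

section finite
variable {S X Z H : Type} [Fintype S] [Fintype X] [Fintype Z] [Fintype H]

/-- PART C1 (file PartC.lean, theorem cell_entropy). `w, k` arbitrary.
Proof. Gibbs inequality (for each `x, h`): `∑ P log (cell P) ≥ ∑ P log φ`, for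
`φ (x,h,s) = (K+1)⁻¹ ∑_{j ≤ K} ∑_{s'} P s' ∏_{rows} f_{σ_j} (Y row s - Y row s')`, `σ_j = rad j / τ ≥ 1`,
`f_σ (t) = exp (-|t| / σ) / (3 σ)`, `∑_{t ∈ ℤ} f_σ t ≤ 1` (so `∑` of `φ` over the label vectors is
`≤ 1`).  Jensen (concavity of log): for every `j` and `s`, averaged over `x, h`,
`E log φ ≥ - log (K+1) + log (bm vs P s (rad j)) - (w+k) log (3 σ_j) - (w+k) (C1 + 1)`, because for
`‖vs s' - vs s‖ ≤ rad j`: `E |Y row s - Y row s'| / σ_j ≤ (C1 rad j / τ + 1) τ / rad j ≤ C1 + 1`. -/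
theorem cell_entropy {CL C1 : ℝ} {d n : ℕ} {τ : ℝ} {vs : S → E d} {vx : X → E d} {lam : S → ℝ}
    {gam gam' : X → ℝ} {Y : X → S → ℤ} (M : Model CL C1 d n τ vs vx lam gam gam' Y)
    (w k K : ℕ) (hK : τ ≤ rad K) (P : S → ℝ) (hP : ∀ s, 0 < P s) (hP1 : ∑ s, P s = 1) :
    ∑ s, P s * Real.log (theta vs P K (w + k) s) + (w + k : ℝ) * Real.log τ
        - (C1 + 3) * (w + k : ℝ) - Real.log (K + 1) ≤
      ∑ h : Fin k → X, prw gam' h * ∑ x : Fin w → X, prw gam x *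
        ∑ s, P s * Real.log (cell P (plab Y) (plab Y) (fun _ => 1) x h s) := by
  sorry

/-- PART C2 (file PartC.lean, theorem cell_entropy_partial).
Same `φ` with `K = 0`, `P = lam` (`bm lam s 2 = 1`), and
`∑ lam ψ log (cell / φ) ≥ - ∑ lam ψ φ / cell ≥ -1`. -/
theorem cell_entropy_partial {CL C1 : ℝ} {d n : ℕ} {τ : ℝ} {vs : S → E d} {vx : X → E d}
    {lam : S → ℝ} {gam gam' : X → ℝ} {Y : X → S → ℤ}
    (M : Model CL C1 d n τ vs vx lam gam gam' Y)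
    (w k : ℕ) (ψ : S → ℝ) (hψ0 : ∀ s, 0 ≤ ψ s) (hψ1 : ∀ s, ψ s ≤ 1) :
    (∑ s, lam s * ψ s) * ((w + k : ℝ) * Real.log τ - (C1 + 4) * (w + k : ℝ)) - 1 ≤
      ∑ h : Fin k → X, prw gam' h * ∑ x : Fin w → X, prw gam x *
        ∑ s, lam s * (ψ s * Real.log (cell lam (plab Y) (plab Y) (fun _ => 1) x h s)) := by
  sorry

/-- PART D (file PartD.lean, theorem moment).
Proof. Expand the `a`-th power: `∑_{f : Fin a → S} ∏_j c (f j) * 1[∀ i j, |⟪vx (x i), p (f j)⟫| ≤ τ]`.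
Averaging over the `w` independent rows gives `(∏_j g τ1 (dist (p (f j)), span {p (f i), i < j}))^w`;
then sum over `f (a-1), f (a-2), …` with `hQ` (induction on the length of `f`). -/
theorem moment {d : ℕ} (a w : ℕ) (vx : X → E d) (gam : X → ℝ) (hgam : ∀ x, 0 ≤ gam x)
    (hg1 : ∑ x, gam x = 1) (τ τ1 : ℝ) (hτ1 : 0 < τ1)
    (hsmall : ∀ p : ℕ, p ≤ a → ∀ u : Fin p → E d, (∀ j, ‖u j‖ ≤ 2) →
      ∑ x, gam x * (if ∀ j, |⟪vx x, u j⟫_ℝ| ≤ τ then 1 else 0) ≤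
        ∏ j, g τ1 (Metric.infDist (u j) (Submodule.span ℝ (u '' {i | i < j}) : Set (E d))))
    (p : S → E d) (hp : ∀ s, ‖p s‖ ≤ 2) (c : S → ℝ) (hc : ∀ s, 0 ≤ c s) (Q : ℝ)
    (hQ : ∀ V : Submodule ℝ (E d), Module.finrank ℝ V ≤ a →
      ∑ s, c s * g τ1 (Metric.infDist (p s) (V : Set (E d))) ^ w ≤ Q) :
    ∑ x : Fin w → X, prw gam x *
      (∑ s, c s * (if ∀ i, |⟪vx (x i), p s⟫_ℝ| ≤ τ then 1 else 0)) ^ a ≤ Q ^ a := by
  sorry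

/-- PART E (file PartE.lean, theorem slab).
Proof. For `ρ ≤ r` the mass of `{dist (p s) V ≤ ρ}` is at most `(1 + r/ρ)^a * Q * (4 ρ / r)^v`: take a
maximal subset of the support with `dist (p s) V ≤ ρ` and pairwise distances `> 4 ρ`; the orthogonal
projections to `V` are at pairwise distance `≥ 2 ρ` and have norm `≤ r`, so (volume of balls in `V`)
there are at most `(1 + r/ρ)^a`; use `hF` with radius `4 ρ`.  Then sum over the dyadic levels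
`2^i τ1 < dist ≤ 2^(i+1) τ1`, where `g τ1 ≤ 2^{-i}`: geometric series since `a + w < v`. -/
theorem slab {d : ℕ} (p : S → E d) (om : S → ℝ) (hom : ∀ s, 0 ≤ om s) (r τ1 Q : ℝ)
    (hτ1 : 0 < τ1) (hr : τ1 ≤ r) (hQ : 0 ≤ Q) (hp : ∀ s, om s ≠ 0 → ‖p s‖ ≤ r) (a w v : ℕ)
    (hav : a + w < v)
    (hF : ∀ s, om s ≠ 0 → ∀ ρ, τ1 ≤ ρ →
      ∑ s', (if ‖p s' - p s‖ ≤ ρ then om s' else 0) ≤ Q * (ρ / r) ^ v)
    (V : Submodule ℝ (E d)) (hV : Module.finrank ℝ V ≤ a) :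
    ∑ s, om s * g τ1 (Metric.infDist (p s) (V : Set (E d))) ^ w ≤
      64 ^ v * Q * (τ1 / r) ^ w := by
  sorry

/-- PART F (file PartF.lean, theorem bad_prob).
Proof. Let `Bad` be the set of `s ∈ A` with `B / 2^(l v) <` mass in `A` of the `r/2^l`-ball around
`p s`.  Take a maximal subset of `Bad` with pairwise distances `> 2 r / 2^l`: the `r/2^l`-balls are
disjoint, so there are at most `2^(l v)` centres `c`, `r/2 < ‖p c‖ ≤ r`; every bad point is within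
`ρ = 2 r / 2^l` of a centre; use `hH` for each centre. -/
theorem bad_prob {d : ℕ} (p : S → E d) (P : S → ℝ) (hP : ∀ s, 0 ≤ P s) (r B : ℝ) (hr : 0 < r)
    (hB : 0 < B) (A : Finset S) (hA : ∀ s ∈ A, r / 2 < ‖p s‖ ∧ ‖p s‖ ≤ r)
    (hAB : ∑ s ∈ A, P s ≤ B) (l v k : ℕ) (eta : H → ℝ) (heta : ∀ h, 0 ≤ eta h)
    (hit : H → S → Prop) (τ CH : ℝ) (hCH : 0 ≤ CH) (hl : τ ≤ 2 * r / 2 ^ l)
    (hH : ∀ c : E d, c ≠ 0 → ‖c‖ ≤ r → ∀ ρ, τ ≤ ρ →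
      ∑ h, eta h * (open Classical in if ∃ s, hit h s ∧ ‖p s - c‖ ≤ ρ then 1 else 0) ≤
        (CH * ρ / ‖c‖) ^ k) :
    ∑ h, eta h * (open Classical in if ∃ s ∈ A, hit h s ∧
        B / 2 ^ (l * v) < ∑ s' ∈ A, (if ‖p s' - p s‖ ≤ r / 2 ^ l then P s' else 0)
        then 1 else 0) ≤
      2 ^ (l * v) * (4 * CH / 2 ^ l) ^ k := by
  sorry

/-- PART G (file PartG.lean, theorem aux_hit).
Proof. If `ρ > ‖c‖ / 4` the bound is `≥ 1` for `CH ≥ 4`. Otherwise let `δ = ρ / √d` and let `v` be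
the vector. Derandomised rounding: for vectors `a_1..a_d ∈ ℝ^k` and `θ_i ∈ [0,1]` there are
`e_i ∈ {0,1}` with `‖∑ (e_i - θ_i) a_i‖² ≤ ∑ ‖a_i‖² / 4` (induction: averaging over `e_i`). So there is
`v' ∈ δ ℤ^d`, `‖v' - v‖ ≤ √d δ = ρ`, `∑_i ⟪h_i, v' - v⟫² ≤ ∑ ‖h_i‖² δ² / 4 ≤ 8 d k δ² / 4 = 2 k ρ²`, hence
`∑_i ⟪h_i, v'⟫² ≤ 2 k τ² + 4 k ρ² ≤ 6 k ρ²`, `‖v' - c‖ ≤ 2 ρ`, `‖c‖ / 2 ≤ ‖v'‖ ≤ 4`.  There are at
most `C^d ≤ C^(7k)` such `v'` (number of integer points `z` with `‖z - z0‖² ≤ 4 d`: it is at most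
`e^{4d} (sup_θ ∑_{n ∈ ℤ} e^{-(n-θ)²})^d`), and for each of them
`P (∑_i ⟪h_i, v'⟫² ≤ 6 k ρ²) ≤ e^{6k} (E exp (-⟪x, v'⟫² / ρ²))^k`,
`E exp (-⟪x, v'⟫²/ρ²) ≤ ∑_{i ≥ 0} e^{-i²} P (|⟪x, v'⟫| ≤ (i+1) ρ) ≤ C ρ C1 / ‖v'‖`. -/
theorem aux_hit (C1 : ℝ) (hC1 : 1 ≤ C1) : ∃ CH : ℝ, 1 ≤ CH ∧ ∀ {X : Type} [Fintype X] (d k : ℕ),
    1 ≤ k → d ≤ 7 * k → ∀ (τ : ℝ), 0 < τ → ∀ (vx : X → E d) (gam' : X → ℝ),
    (∀ x, 0 ≤ gam' x) → ∑ x, gam' x = 1 →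
    (∀ (σ : ℝ) (u : E d), τ ≤ σ → u ≠ 0 → ‖u‖ ≤ 4 →
      ∑ x, gam' x * (if |⟪vx x, u⟫_ℝ| ≤ σ then 1 else 0) ≤ C1 * σ / ‖u‖) →
    (∀ x, gam' x ≠ 0 → ‖vx x‖ ^ 2 ≤ 8 * d) →
    ∀ c : E d, c ≠ 0 → ‖c‖ ≤ 2 → ∀ ρ : ℝ, τ ≤ ρ →
      ∑ h : Fin k → X, prw gam' h *
        (open Classical in
          if ∃ v : E d, ‖v - c‖ ≤ ρ ∧ ∀ i, |⟪vx (h i), v⟫_ℝ| ≤ τ then 1 else 0) ≤
        (CH * ρ / ‖c‖) ^ k := by
  sorry

/-- PART I1 (file PartI1.lean, theorem good_part): assembly of D, E, F, G for one state `z'` and one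
signal `s0`.
Notation: `p s = vs s - vs s0`, `Θ = theta vs P K (6n) s0 ≥ 2^{-6n}`, `τ1 = C1 τ`, `r_j = rad j`,
`A_j = {r_{j+1} < ‖p s‖ ≤ r_j}` (`j < K`), `B_j = Θ r_j^(6n) ≥ P (A_j)`. `CH` from `aux_hit`, `l1` with
`2^(2 l1) ≥ 16 (4 CH)^5`.  `Bd = {s ∈ A_j bad for some j < K}`: `s` is bad if for some `l ≥ l1` with
`τ ≤ r_j / 2^l` the `P`-mass of `A_j ∩ ball (p s) (r_j / 2^l)` is `> B_j / 2^(3 n l)`. By `bad_prob`
(`v = 3n`, `k = 5n`) the probability is `≤ ∑_{j<K} ∑_{l ≥ l1} ((4CH)^5 / 2^(2l))^n ≤ 2 K / 16^n`.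
Second claim: `E_h 1[h does not separate s, s0] ≤ g τ1 (‖p s‖)^(5n)` and
`1[x does not separate] ≤ 1[∀ i, |⟪vx (x i), p s⟫| ≤ τ]`; apply `moment` (`a = w = n`) with
`c s = P s g τ1 ‖p s‖^(5n) / (Θ τ^(6n))` for `s ∉ Bd`, `Q = (K+1) D^n`. `hQ`: for `s ∈ A_j \ Bd` use
`slab` with `om = P` on `A_j \ Bd`, `r = r_j`, `a = n, w = n, v = 3n`, `Q = 2^((l1+1) 3 n) B_j`
(Frostman for all radii `≥ τ1`: dyadic rounding) and `g τ1 ‖p s‖ ≤ 2 τ1 / r_j`; for `‖p s‖ ≤ r_K` use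
`P s ≤ exp L0 * lam s`, `g τ1 ‖p s‖ ≤ g τ1 (dist)`, `slab` with `a = n, w = 6n, v = 15n`,
`Q = (CL r_K)^(15n)` and `r_K^(9n) exp L0 ≤ 2^(9n)`, `Θ ≥ 2^{-6n}`. -/
theorem good_part (CL C1 : ℝ) : ∃ D : ℝ, 1 ≤ D ∧ ∀ {S X : Type} [Fintype S] [DecidableEq S]
    [Fintype X]
    {d n : ℕ} {τ : ℝ} {vs : S → E d} {vx : X → E d} {lam : S → ℝ} {gam gam' : X → ℝ}
    {Y : X → S → ℤ} (_ : Model CL C1 d n τ vs vx lam gam gam' Y) (K : ℕ) (L0 : ℝ)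
    (_ : L0 ≤ 9 * n * K * Real.log 2) (_ : C1 * τ ≤ rad K) (P : S → ℝ) (_ : ∀ s, 0 < P s)
    (_ : ∑ s, P s = 1) (_ : ∀ s, P s ≤ Real.exp L0 * lam s) (s0 : S),
    ∃ Bd : Finset S,
      ∑ h : Fin (5 * n) → X, prw gam' h *
        (if ∃ s ∈ Bd, plab Y h s = plab Y h s0 then 1 else 0) ≤ 2 * K / 16 ^ n ∧
      ∑ x : Fin n → X, prw gam x * (1 + ∑ h : Fin (5 * n) → X, prw gam' h *
        ((∑ s ∈ Bdᶜ, if plab Y x s = plab Y x s0 ∧ plab Y h s = plab Y h s0 then P s else 0) /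
          (theta vs P K (6 * n) s0 * τ ^ (6 * n)))) ^ n ≤ ((K + 1) * D ^ n) ^ n := by
  sorry

/-- PART I2 (file PartI2.lean, theorem window): increment of the potential in one window; assembly of
`pot_step`, `dv_total`, `cell_entropy`, `good_part`.
Proof. `u' = un ..` satisfies `exp (-L0) ≤ u'`, `∑_z u' = 1`; `Pz z' = ∑ lam u' z' ≥ exp (-L0)`,
`P_{z'} s = lam s u' z' s / Pz z' ≤ exp L0 lam s`. In `pot_step` one may subtract `log (Pz z')` from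
`log (cell (u' z'))` (because `∑_x gam q = u'`), which gives `log` of the `P_{z'}`-cell. The `u'`-term is
bounded below by `cell_entropy` (`w = n`, `k = 5n`). For the `q`-term, with `Bd = Bd (z', s)`,
`E (h) = [∃ s' ∈ Bd, h does not separate s', s]`, `R = cell lam 1 x h s / τ^(6n)`:
 `log (P_{z'} cell) ≤ log Θ + 6n log τ + log (1 + Gh) + 1_{E h} (L0 + 6 n log 2 + log (1 + R))`
(if not `E h`, the cell does not meet `Bd`; in general `P_{z'} ≤ exp L0 lam`, `Θ ≥ 2^{-6n}`). Jensen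
in `h` (`∑ prw gam' = 1`) and `dv_total` with `a = n` bound the `log (1 + G)` term by
`log card Z / n + 2 log ... `: `log (((K+1) D^n)^n) / n = log (K+1) + n log D`. The last term:
`log (1+R) ≤ log t + (1+R)/t`, `t = 1 + D'^n`, `E R ≤ ∑ lam s' g (C1 τ) ‖p s'‖^(6n) / τ^(6n) ≤ D'^n` (`slab`,
`V = ⊥`, `r = 2`, `v = 15 n`), `E b ≤ 2K/16^n`, `K, L0 ≤ 2^n`. -/
theorem window (CL C1 : ℝ) : ∃ C4 : ℝ, 0 < C4 ∧ ∀ {S X Z : Type} [Fintype S] [Fintype X]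
    [Fintype Z] {d n : ℕ} {τ : ℝ} {vs : S → E d} {vx : X → E d} {lam : S → ℝ} {gam gam' : X → ℝ}
    {Y : X → S → ℤ} (_ : Model CL C1 d n τ vs vx lam gam gam' Y)
    (κ : Z → (Fin n → X) → (Fin n → ℤ) → Z → ℝ) (L0 : ℝ)
    (_ : ∀ z x l z', Real.exp (-L0) ≤ κ z x l z') (_ : ∀ z x l, ∑ z', κ z x l z' = 1)
    (u : Z → S → ℝ) (_ : ∀ z s, 0 < u z s) (_ : ∀ s, ∑ z, u z s = 1) (K : ℕ)
    (_ : 1 ≤ L0) (_ : L0 ≤ 9 * n * K * Real.log 2) (_ : (K : ℝ) + 3 ≤ 2 ^ n)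
    (_ : L0 ≤ 2 ^ n) (_ : C1 * τ ≤ rad K),
    pot lam (prw gam (w := n)) (prw gam' (w := 5 * n)) (plab Y) (plab Y)
      (un (prw gam (w := n)) (plab Y) κ u)
      - pot lam (prw gam (w := n)) (prw gam' (w := 5 * n)) (plab Y) (plab Y) u ≤
      Real.log (Fintype.card Z) / n + C4 * n := by
  sorry

/-- PART J (file PartJ.lean, theorem pot_lower).
Proof. `B z = {s : ‖vs s - o z‖ ≤ ε}`.  Log-sum inequality on `cell ∩ B z` and `cell \ B z`: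
`pot u ≥ E ∑_z ∑_{s ∈ B z} lam s u z s log (cell lam 1 (s) / cell lam 1_{B z} (s)) - log 2`.
C2 with `ψ s = ∑_z u z s 1_{B z} s` bounds `log cell` from below, and by Jensen and
`E_{x,h} cell lam 1_{B z} (s) ≤ ∑_{‖vs s' - vs s‖ ≤ 2 ε} lam s' g (C1 τ) (‖vs s' - vs s‖)^(6n) ≤
C^n τ^(6n) ε^(9n)` (`slab` with `V = ⊥`, `a = 0`, `w = 6n`, `v = 15 n`, `r = 2 ε`). -/
theorem pot_lower (CL C1 : ℝ) : ∃ C5 : ℝ, 0 < C5 ∧ ∀ {S X Z : Type} [Fintype S] [Fintype X]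
    [Fintype Z] {d n : ℕ} {τ : ℝ} {vs : S → E d} {vx : X → E d} {lam : S → ℝ} {gam gam' : X → ℝ}
    {Y : X → S → ℤ} (_ : Model CL C1 d n τ vs vx lam gam gam' Y)
    (u : Z → S → ℝ) (_ : ∀ z s, 0 < u z s) (_ : ∀ s, ∑ z, u z s = 1) (o : Z → E d) (ε : ℝ)
    (_ : 0 < ε) (_ : ε ≤ 1) (_ : C1 * τ ≤ ε),
    (∑ z, ∑ s, lam s * u z s * (if ‖vs s - o z‖ ≤ ε then 1 else 0)) *
        (9 * n * Real.log (1 / ε) - C5 * n) - 2 ≤
      pot lam (prw gam (w := n)) (prw gam' (w := 5 * n)) (plab Y) (plab Y) u := by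
  sorry

end finite

/-- PART K (file PartK.lean, theorem finite_main).
Proof. `θ = 1 / (4 r)`, `κ = (1-θ) 1[F = z'] + θ / N`, `u_0 z s = (1-θ) 1[z = z0] + θ/N`, `pot u_0 = 0`
(`u_0` does not depend on `s`), `u_i ≥ (1-θ)^(i+1) ud_i`; `window` for every step and `pot_lower` at
the end; `L0 = log N + log (4 r)` (or `max 1`), `K = ⌈L0⌉`. -/
theorem finite_main (CL C1 : ℝ) : ∃ C : ℝ, 0 < C ∧ ∀ {S X Z : Type} [Fintype S] [Fintype X]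
    [Fintype Z] {d n : ℕ} {τ : ℝ} {vs : S → E d} {vx : X → E d} {lam : S → ℝ} {gam gam' : X → ℝ}
    {Y : X → S → ℤ} (_ : Model CL C1 d n τ vs vx lam gam gam' Y)
    (F : ℕ → Z → (Fin n → X) → (Fin n → ℤ) → Z) (z0 : Z) (r : ℕ) (_ : 1 ≤ r) (o : Z → E d)
    (ε : ℝ) (_ : 0 < ε) (_ : ε ≤ 1)
    (_ : 1 / 2 ≤ ∑ z, ∑ s, lam s * ud (prw gam) (plab Y) F z0 r z s *
      (if ‖vs s - o z‖ ≤ ε then 1 else 0))
    (_ : Real.log (Fintype.card Z) + Real.log (4 * r) + 6 ≤ 2 ^ n)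
    (_ : C1 * τ * 2 ^ (⌈Real.log (Fintype.card Z) + Real.log (4 * r)⌉₊ + 2) ≤ 1)
    (_ : C1 * τ ≤ ε),
    n * Real.log (1 / ε) ≤ r * (Real.log (Fintype.card Z) / n + C * n) + C * n := by
  sorry

/-! ## The real model (definitions `ud`, `IsUniformSphere`, `run` are in Defs2.lean) -/

/-- PART R0 (file PartR0.lean, theorem gauss_small): small balls for the standard Gaussian.
Proof. Gram-Schmidt: orthonormal basis `b` of `E d` adapted to the flag `span (u '' {i | i < j})`;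
`stdGaussian_eq_map_pi_orthonormalBasis`; `⟪x, u j⟫ = R_jj ξ_j + (function of earlier ξ)` with
`|R_jj| = infDist (u j) (span ..)`, and the density of `ξ_j` is `≤ 1/√(2π) ≤ 1/2`. Induction on `p`. -/
theorem gauss_small (d p : ℕ) (u : Fin p → E d) (τ : ℝ) (hτ : 0 < τ) :
    (stdGaussian (E d)).real {x | ∀ j, |⟪x, u j⟫_ℝ| ≤ τ} ≤
      ∏ j, g τ (Metric.infDist (u j) (Submodule.span ℝ (u '' {i | i < j}) : Set (E d))) := by
  sorry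

/-- PART R1 (file PartR1.lean, theorem exists_rows), uses gauss_small. `C1` absolute (e.g. 16).
`Q` = a measurable finite quantisation with `‖vx (Q x) - x‖ ≤ δ'` for `‖x‖ ≤ R` and `R` so large and
`δ' ≤ δ` so small that the error events have probability `≤ (τ/4)^n`; `gam'` is `gam` conditioned on
`‖vx i‖² ≤ 8 d` (probability `≥ 3/4` by Markov, `E ‖x‖² = d`). -/
theorem exists_rows : ∃ C1 : ℝ, 1 ≤ C1 ∧ ∀ (d n : ℕ), 1 ≤ n → 16 * n ≤ d → d ≤ 32 * n →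
    ∀ τ : ℝ, 0 < τ → τ ≤ 1 → ∀ δ : ℝ, 0 < δ → ∃ (N : ℕ) (vx : Fin N → E d) (Q : E d → Fin N)
    (gam' : Fin N → ℝ), Measurable Q ∧
    (stdGaussian (E d)).real {x | δ < ‖vx (Q x) - x‖} ≤ δ ∧
    (∀ x, 0 ≤ gam' x) ∧ ∑ x, gam' x = 1 ∧
    (∀ p : ℕ, p ≤ n → ∀ u : Fin p → E d, (∀ j, ‖u j‖ ≤ 2) →
      ∑ x, (stdGaussian (E d)).real (Q ⁻¹' {x}) *
        (if ∀ j, |⟪vx x, u j⟫_ℝ| ≤ τ then 1 else 0) ≤
      ∏ j, g (C1 * τ) (Metric.infDist (u j) (Submodule.span ℝ (u '' {i | i < j}) : Set (E d)))) ∧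
    (∀ u : E d, ∑ x, (stdGaussian (E d)).real (Q ⁻¹' {x}) * |⟪vx x, u⟫_ℝ| ≤ C1 * ‖u‖) ∧
    (∀ u : E d, ∑ x, gam' x * |⟪vx x, u⟫_ℝ| ≤ C1 * ‖u‖) ∧
    (∀ (σ : ℝ) (u : E d), τ ≤ σ → u ≠ 0 → ‖u‖ ≤ 4 →
      ∑ x, gam' x * (if |⟪vx x, u⟫_ℝ| ≤ σ then 1 else 0) ≤ C1 * σ / ‖u‖) ∧
    (∀ x, gam' x ≠ 0 → ‖vx x‖ ^ 2 ≤ 8 * d) := by
  sorry

/-- PART R2 (file PartR2.lean, theorems sphere_ball, exists_signals).
Proof of sphere_ball. For a unit vector `c` all caps of radius `ρ` have the same mass (isometries act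
transitively on the sphere); a maximal `2ρ`-separated subset of the sphere has at least
`3^{-d} ρ^{1-d}` points, since the `3ρ`-balls around it cover the shell `1 - ρ ≤ ‖x‖ ≤ 1` (volume). -/
theorem sphere_ball (d : ℕ) (hd : 2 ≤ d) (μ : Measure (E d)) (hμ : IsUniformSphere d μ) (c : E d)
    (ρ : ℝ) (hρ : 0 < ρ) : μ.real (Metric.closedBall c ρ) ≤ (40 * ρ) ^ (d - 1) := by
  sorry

theorem exists_signals : ∃ CL : ℝ, 1 ≤ CL ∧ ∀ (d n : ℕ), 1 ≤ n → 16 * n ≤ d →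
    ∀ μ : Measure (E d), IsUniformSphere d μ → ∀ τ : ℝ, 0 < τ → ∀ δ : ℝ, 0 < δ →
    ∃ (N : ℕ) (vs : Fin N → E d) (Q : E d → Fin N), Measurable Q ∧ (∀ i, ‖vs i‖ ≤ 1) ∧
    μ {s | δ < ‖vs (Q s) - s‖} = 0 ∧ (∀ i, 0 < μ.real (Q ⁻¹' {i})) ∧
    (∀ (c : E d) (ρ : ℝ), τ ≤ ρ →
      ∑ i, (if ‖vs i - c‖ ≤ ρ then μ.real (Q ⁻¹' {i}) else 0) ≤ (CL * ρ) ^ (15 * n)) := by
  sorry

/-- PART R3 (file PartR3.lean, theorem approx_fun): finite-valued measurable functions are locally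
constant on a large compact set. -/
theorem approx_fun {A Z : Type} [MetricSpace A] [MeasurableSpace A] [BorelSpace A]
    [SecondCountableTopology A] [CompleteSpace A] [Fintype Z] [Nonempty Z]
    (ν : Measure A) [IsProbabilityMeasure ν] (f : A → Z) (hf : ∀ z, MeasurableSet (f ⁻¹' {z}))
    (δ : ℝ) (hδ : 0 < δ) : ∃ (K : Set A) (η : ℝ) (fh : A → Z), MeasurableSet K ∧ 0 < η ∧
      ν.real Kᶜ ≤ δ ∧ ∀ a ∈ K, ∀ b, dist a b ≤ η → fh b = f a := by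
  sorry

/-- PART R4 (file PartR4.lean, theorem transfer): quantisation of a learner.
`T = r * n`, `Y x s = ⌊⟪vx x, vs s⟫ / τ⌋`, quantised learner from `approx_fun` applied to each
`F t z` and the law of `(x, ⟪x, s⟫)`; the window maps of the chain are compositions of `n` quantised
steps; the quantised run agrees with the real run except on a small event (union bound). -/
theorem transfer : ∃ CL C1 : ℝ, 1 ≤ CL ∧ 1 ≤ C1 ∧ ∀ {Z : Type} [Fintype Z] [Nonempty Z]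
    (d n : ℕ), 1 ≤ n → 16 * n ≤ d → d ≤ 32 * n → ∀ μ : Measure (E d), IsUniformSphere d μ →
    ∀ F : ℕ → Z → E d → ℝ → Z,
    (∀ t z z', MeasurableSet {a : E d × ℝ | F t z a.1 a.2 = z'}) →
    ∀ (z0 : Z) (r : ℕ) (o : Z → E d) (ε : ℝ), 0 < ε →
    3 / 5 ≤ ((Measure.pi fun _ : Fin (r * n) => stdGaussian (E d)).prod μ).real
      {a | ‖a.2 - o (run F z0 (r * n) a.1 a.2)‖ ≤ ε} →
    ∀ τ0 : ℝ, 0 < τ0 → ∃ τ : ℝ, 0 < τ ∧ τ ≤ τ0 ∧ ∃ (NS NX : ℕ) (vs : Fin NS → E d)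
      (vx : Fin NX → E d) (lam : Fin NS → ℝ) (gam gam' : Fin NX → ℝ) (Y : Fin NX → Fin NS → ℤ)
      (Fh : ℕ → Z → (Fin n → Fin NX) → (Fin n → ℤ) → Z),
      Model CL C1 d n τ vs vx lam gam gam' Y ∧
      1 / 2 ≤ ∑ z, ∑ s, lam s * ud (prw gam) (plab Y) Fh z0 r z s *
        (if ‖vs s - o z‖ ≤ 2 * ε then 1 else 0) := by
  sorry

end Vale.Agent.Mem.Stub
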